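import Mathlib

/-!
The Chermak-Delgado argument: a finite group with an abelian subgroup of order larger than the
square root of the order of the group has a nontrivial characteristic abelian subgroup.
-/

set_option linter.unusedSectionVars false

namespace Vale.Agent.P011.H861

open Subgroup

variable {G : Type*} [Group G] [Finite G]

/-- The Chermak-Delgado measure. -/
noncomputable def cdm (H : Subgroup G) : ℕ := Nat.card H * Nat.card (centralizer (H : Set G))

theorem card_mul_relIndex' {H K : Subgroup G} (h : H ≤ K) :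
    Nat.card H * H.relIndex K = Nat.card K := by
  have h1 := Subgroup.card_mul_index (H.subgroupOf K)
  rw [← h1, relIndex]
  congr 1
  exact Nat.card_congr (subgroupOfEquivOfLe h).toEquiv.symm

theorem card_mul_card_le (H K : Subgroup G) :
    Nat.card H * Nat.card K ≤ Nat.card (H ⊓ K : Subgroup G) * Nat.card (H ⊔ K : Subgroup G) := by
  have h3 : Nat.card H * H.relIndex (H ⊔ K) = Nat.card (H ⊔ K : Subgroup G) :=
    card_mul_relIndex' le_sup_left
  have h2 : Nat.card (H ⊓ K : Subgroup G) * H.relIndex K = Nat.card K := by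
    rw [← inf_relIndex_right]
    exact card_mul_relIndex' inf_le_right
  have h1 : H.relIndex K ≤ H.relIndex (H ⊔ K) :=
    relIndex_le_of_le_right le_sup_right (by
      intro h
      rw [h, mul_zero] at h3
      exact (Nat.card_pos (α := (H ⊔ K : Subgroup G))).ne h3)
  calc Nat.card H * Nat.card K
      = Nat.card H * (Nat.card (H ⊓ K : Subgroup G) * H.relIndex K) := by rw [h2]
    _ ≤ Nat.card H * (Nat.card (H ⊓ K : Subgroup G) * H.relIndex (H ⊔ K)) := by gcongr
    _ = Nat.card (H ⊓ K : Subgroup G) * Nat.card (H ⊔ K : Subgroup G) := by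
      rw [← h3]; ring

theorem card_le_of_le' {H K : Subgroup G} (h : H ≤ K) : Nat.card H ≤ Nat.card K :=
  Nat.card_le_card_of_injective (inclusion h) (inclusion_injective h)

theorem le_centralizer_centralizer (H : Subgroup G) :
    H ≤ centralizer (centralizer (H : Set G) : Set G) := by
  intro a ha
  rw [mem_centralizer_iff]
  intro g hg
  exact (mem_centralizer_iff.mp hg a ha).symm

theorem cdm_mul_le (H K : Subgroup G) : cdm H * cdm K ≤ cdm (H ⊓ K) * cdm (H ⊔ K) := by
  have h1 := card_mul_card_le H K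
  have h2 := card_mul_card_le (centralizer (H : Set G)) (centralizer (K : Set G))
  have h3 : centralizer (H : Set G) ⊓ centralizer (K : Set G) ≤
      centralizer ((H ⊔ K : Subgroup G) : Set G) := by
    intro g hg
    rw [mem_inf] at hg
    have h : H ⊔ K ≤ centralizer {g} := sup_le
      (fun a ha => mem_centralizer_iff.mpr fun b hb => by
        rw [Set.mem_singleton_iff.mp hb]; exact ((mem_centralizer_iff.mp hg.1) a ha).symm)
      (fun a ha => mem_centralizer_iff.mpr fun b hb => by
        rw [Set.mem_singleton_iff.mp hb]; exact ((mem_centralizer_iff.mp hg.2) a ha).symm)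
    exact mem_centralizer_iff.mpr fun a ha => (mem_centralizer_iff.mp (h ha) g rfl).symm
  have h4 : centralizer (H : Set G) ⊔ centralizer (K : Set G) ≤
      centralizer ((H ⊓ K : Subgroup G) : Set G) := sup_le
    (centralizer_le (fun a ha => (mem_inf.mp ha).1))
    (centralizer_le (fun a ha => (mem_inf.mp ha).2))
  have h5 := card_le_of_le' h3
  have h6 := card_le_of_le' h4
  unfold cdm
  calc Nat.card H * Nat.card (centralizer (H : Set G)) *
        (Nat.card K * Nat.card (centralizer (K : Set G)))
      = (Nat.card H * Nat.card K) *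
        (Nat.card (centralizer (H : Set G)) * Nat.card (centralizer (K : Set G))) := by ring
    _ ≤ (Nat.card (H ⊓ K : Subgroup G) * Nat.card (H ⊔ K : Subgroup G)) *
        (Nat.card (centralizer ((H ⊔ K : Subgroup G) : Set G)) *
          Nat.card (centralizer ((H ⊓ K : Subgroup G) : Set G))) := by
      apply Nat.mul_le_mul h1
      exact h2.trans (Nat.mul_le_mul h5 h6)
    _ = _ := by ring

theorem cdm_centralizer (H : Subgroup G) : cdm H ≤ cdm (centralizer (H : Set G)) := by
  unfold cdm
  rw [mul_comm]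
  exact Nat.mul_le_mul_left _ (card_le_of_le' (le_centralizer_centralizer H))

theorem cdm_map (φ : G ≃* G) (H : Subgroup G) : cdm (H.map φ.toMonoidHom) = cdm H := by
  have h1 : ∀ K : Subgroup G, Nat.card (K.map φ.toMonoidHom) = Nat.card K := fun K =>
    Nat.card_congr (K.equivMapOfInjective φ.toMonoidHom φ.injective).toEquiv.symm
  have h2 : centralizer ((H.map φ.toMonoidHom : Subgroup G) : Set G) =
      (centralizer (H : Set G)).map φ.toMonoidHom := by
    ext g
    constructor
    · intro hg
      refine ⟨φ.symm g, ?_, by simp⟩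
      refine mem_centralizer_iff.mpr fun a ha => ?_
      apply φ.injective
      have := mem_centralizer_iff.mp hg (φ a) ⟨a, ha, rfl⟩
      simpa using this
    · rintro ⟨x, hx, rfl⟩
      refine mem_centralizer_iff.mpr ?_
      rintro _ ⟨a, ha, rfl⟩
      have := mem_centralizer_iff.mp hx a ha
      have h := congrArg φ this
      simpa using h
  unfold cdm
  rw [h1, h2, h1]

/-- **Chermak-Delgado.** -/
theorem exists_char_abelian (B : Subgroup G) (hB : ∀ a ∈ B, ∀ b ∈ B, a * b = b * a)
    (hcard : Nat.card G < Nat.card B ^ 2) :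
    ∃ A : Subgroup G, A ≠ ⊥ ∧ A.Characteristic ∧ ∀ a ∈ A, ∀ b ∈ A, a * b = b * a := by
  classical
  obtain ⟨M, hM, hmax⟩ : ∃ M : ℕ, (∃ H : Subgroup G, cdm H = M) ∧ ∀ H : Subgroup G, cdm H ≤ M := by
    obtain ⟨H, hH⟩ := Finite.exists_max (fun H : Subgroup G => cdm H)
    exact ⟨cdm H, ⟨H, rfl⟩, hH⟩
  have hBM : Nat.card G < M := by
    refine lt_of_lt_of_le hcard (le_trans ?_ (hmax B))
    unfold cdm
    rw [sq]
    exact Nat.mul_le_mul_left _ (card_le_of_le' fun a ha =>
      mem_centralizer_iff.mpr fun b hb => hB b hb a ha)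
  obtain ⟨H₀, hH₀, hmin⟩ : ∃ H₀ : Subgroup G, cdm H₀ = M ∧
      ∀ K : Subgroup G, cdm K = M → Nat.card H₀ ≤ Nat.card K := by
    obtain ⟨H, hH⟩ := hM
    have hne : Nonempty {K : Subgroup G // cdm K = M} := ⟨⟨H, hH⟩⟩
    obtain ⟨K, hK⟩ := Finite.exists_min (fun K : {K : Subgroup G // cdm K = M} => Nat.card K.1)
    exact ⟨K.1, K.2, fun L hL => hK ⟨L, hL⟩⟩
  have hMpos : 0 < M := lt_of_le_of_lt (Nat.zero_le _) hBM
  have hle : ∀ K : Subgroup G, cdm K = M → H₀ ≤ K := by
    intro K hK
    have h1 := cdm_mul_le H₀ K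
    rw [hH₀, hK] at h1
    have h2 : cdm (H₀ ⊓ K) = M := by
      apply le_antisymm (hmax _)
      have h3 := hmax (H₀ ⊔ K)
      have h4 : M * M ≤ cdm (H₀ ⊓ K) * M := h1.trans (Nat.mul_le_mul_left _ h3)
      exact Nat.le_of_mul_le_mul_right h4 hMpos
    have h5 := hmin _ h2
    have h6 : H₀ ⊓ K = H₀ := Subgroup.eq_of_le_of_card_ge inf_le_left h5
    rw [← h6]
    exact inf_le_right
  refine ⟨H₀, ?_, ?_, ?_⟩
  · rintro rfl
    have : cdm (⊥ : Subgroup G) ≤ Nat.card G := by
      unfold cdm
      rw [card_bot, one_mul]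
      exact Nat.card_le_card_of_injective _ Subtype.val_injective
    omega
  · refine characteristic_iff_le_map.mpr fun φ => ?_
    exact hle _ ((cdm_map φ H₀).trans hH₀)
  · have h1 : cdm (centralizer (H₀ : Set G)) = M :=
      le_antisymm (hmax _) (hH₀ ▸ cdm_centralizer H₀)
    intro a ha b hb
    exact mem_centralizer_iff.mp (hle _ h1 hb) a ha

end Vale.Agent.P011.H861
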