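import Vale.Agent.P011.H861.CD

/-!
The finite group lemma for a pair `P < Q`: `P` is a minimal normal subgroup of the finite group `Q`
with trivial centralizer and `Q / P` is abelian. A family of `P`-invariant subsets covering `Q`
cannot satisfy the product relation.
-/

set_option linter.unusedSectionVars false

namespace Vale.Agent.P011.H861

open Subgroup

variable {Q : Type*} [Group Q]

theorem conj_of_rel {ρ r γ a b : Q} (h0 : r * ρ = ρ * r) (h1 : γ * (r * a) = (r * a) * γ)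
    (h2 : (ρ * γ * ρ) * (b * r⁻¹) = (b * r⁻¹) * (ρ * γ * ρ)) :
    γ * (ρ * b * ρ⁻¹ * a) * γ⁻¹ = ρ⁻¹ * b * ρ * a := by
  have e1 : r * ρ⁻¹ = ρ⁻¹ * r := by
    rw [eq_inv_mul_iff_mul_eq, ← mul_assoc, ← h0, mul_assoc, mul_inv_cancel, mul_one]
  have e2 : r⁻¹ * ρ * r = ρ := by rw [mul_assoc, ← h0, inv_mul_cancel_left]
  calc γ * (ρ * b * ρ⁻¹ * a) * γ⁻¹
      = ρ⁻¹ * ((ρ * γ * ρ) * (b * r⁻¹)) * (r * ρ⁻¹) * a * γ⁻¹ := by group
    _ = ρ⁻¹ * ((b * r⁻¹) * (ρ * γ * ρ)) * (ρ⁻¹ * r) * a * γ⁻¹ := by rw [h2, e1]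
    _ = ρ⁻¹ * (b * r⁻¹) * ρ * (γ * (r * a)) * γ⁻¹ := by group
    _ = ρ⁻¹ * (b * r⁻¹) * ρ * ((r * a) * γ) * γ⁻¹ := by rw [h1]
    _ = ρ⁻¹ * b * (r⁻¹ * ρ * r) * a := by group
    _ = ρ⁻¹ * b * ρ * a := by rw [e2]

theorem closure_normal_of_conj (s : Set Q) (hs : ∀ x ∈ s, ∀ g, g * x * g⁻¹ ∈ s) :
    (closure s).Normal := by
  constructor
  intro n hn g
  induction hn using closure_induction with
  | mem x hx => exact subset_closure (hs x hx g)
  | one => simp
  | mul x y _ _ hx hy =>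
    have := mul_mem hx hy
    simpa [mul_assoc] using this
  | inv x _ hx =>
    have := inv_mem hx
    simpa [mul_assoc] using this

section
variable {P : Subgroup Q}

theorem eq_one_of_comm (hcen : centralizer (P : Set Q) = ⊥) {a : Q}
    (h : ∀ x ∈ P, x * a = a * x) : a = 1 := by
  rw [← mem_bot, ← hcen]
  exact mem_centralizer_iff.mpr h

theorem not_comm (hcen : centralizer (P : Set Q) = ⊥) (hne : P ≠ ⊥) :
    ¬ ∀ a ∈ P, ∀ b ∈ P, a * b = b * a := by
  intro h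
  exact hne ((eq_bot_iff_forall _).mpr fun a ha => eq_one_of_comm hcen fun x hx => h x hx a ha)

theorem char_eq_bot [P.Normal] (hmin : ∀ X : Subgroup Q, X.Normal → X ≤ P → X = ⊥ ∨ X = P)
    (hcen : centralizer (P : Set Q) = ⊥) (hne : P ≠ ⊥) (A : Subgroup P) (hA : A.Characteristic)
    (hab : ∀ a ∈ A, ∀ b ∈ A, a * b = b * a) : A = ⊥ := by
  have h1 : (A.map P.subtype).Normal := inferInstance
  rcases hmin _ h1 (map_subtype_le A) with h | h
  · exact (map_eq_bot_iff_of_injective A P.subtype_injective).mp h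
  · exfalso
    apply not_comm hcen hne
    intro a ha b hb
    rw [← h] at ha hb
    obtain ⟨a, ha, rfl⟩ := ha
    obtain ⟨b, hb, rfl⟩ := hb
    have := congrArg P.subtype (hab a ha b hb)
    simpa using this

/-- There is no involution. -/
theorem eq_one_of_sq [P.Normal] (hmin : ∀ X : Subgroup Q, X.Normal → X ≤ P → X = ⊥ ∨ X = P)
    (hcen : centralizer (P : Set Q) = ⊥) (hne : P ≠ ⊥)
    (hrel : ∀ a : Q, ∀ ρ ∈ P, ∃ γ, γ * (ρ * (ρ * a * ρ⁻¹) * ρ⁻¹ * a) * γ⁻¹ = a * a)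
    {a : Q} (ha : a * a = 1) : a = 1 := by
  have hcomm : ∀ ρ ∈ P, (ρ * ρ) * a = a * (ρ * ρ) := by
    intro ρ hρ
    obtain ⟨γ, h⟩ := hrel a ρ hρ
    rw [ha] at h
    have h1 : ρ * (ρ * a * ρ⁻¹) * ρ⁻¹ * a = 1 := by
      have : ρ * (ρ * a * ρ⁻¹) * ρ⁻¹ * a = γ⁻¹ * (γ * (ρ * (ρ * a * ρ⁻¹) * ρ⁻¹ * a) * γ⁻¹) * γ := by
        group
      rw [this, h]
      group
    have h2 : ρ * (ρ * a * ρ⁻¹) * ρ⁻¹ = a := by
      rw [mul_eq_one_iff_eq_inv] at h1
      rw [h1]
      exact inv_eq_of_mul_eq_one_left ha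
    calc (ρ * ρ) * a = ρ * (ρ * a * ρ⁻¹) * ρ⁻¹ * (ρ * ρ) := by group
      _ = a * (ρ * ρ) := by rw [h2]
  have hS : (closure {x : Q | ∃ ρ ∈ P, x = ρ * ρ}).Normal := by
    apply closure_normal_of_conj
    rintro _ ⟨ρ, hρ, rfl⟩ g
    exact ⟨g * ρ * g⁻¹, Normal.conj_mem inferInstance ρ hρ g, by group⟩
  have hle : closure {x : Q | ∃ ρ ∈ P, x = ρ * ρ} ≤ P := by
    rw [closure_le]
    rintro _ ⟨ρ, hρ, rfl⟩
    exact mul_mem hρ hρ
  rcases hmin _ hS hle with h | h
  · exfalso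
    have hsq : ∀ ρ ∈ P, ρ * ρ = 1 := by
      intro ρ hρ
      have : ρ * ρ ∈ closure {x : Q | ∃ ρ ∈ P, x = ρ * ρ} := subset_closure ⟨ρ, hρ, rfl⟩
      rw [h] at this
      exact mem_bot.mp this
    apply not_comm hcen hne
    intro x hx y hy
    have hi : ∀ z ∈ P, z⁻¹ = z := fun z hz => inv_eq_of_mul_eq_one_left (hsq z hz)
    rw [← hi _ (mul_mem hx hy), mul_inv_rev, hi x hx, hi y hy]
  · apply eq_one_of_comm hcen
    intro x hx
    rw [← h] at hx
    have : closure {x : Q | ∃ ρ ∈ P, x = ρ * ρ} ≤ centralizer {a} := by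
      rw [closure_le]
      rintro _ ⟨ρ, hρ, rfl⟩
      rw [SetLike.mem_coe, mem_centralizer_iff]
      rintro b hb
      rw [Set.mem_singleton_iff.mp hb]
      exact (hcomm ρ hρ).symm
    exact (mem_centralizer_iff.mp (this hx) a rfl).symm

/-- The conjugacy class of an element `a` with `P C(a) = Q` is the coset `P a`, and `a` has no
fixed points in `P`. -/
theorem fpf_of_sup [Finite Q] [P.Normal]
    (hmin : ∀ X : Subgroup Q, X.Normal → X ≤ P → X = ⊥ ∨ X = P)
    (hcen : centralizer (P : Set Q) = ⊥)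
    (hstar : ∀ a : Q, ∀ x ∈ P, ∃ γ, γ * (x * a * x⁻¹ * a) * γ⁻¹ = a * a)
    {a : Q} (ha : a ≠ 1) (hsup : P ⊔ centralizer {a} = ⊤) :
    (∀ p ∈ P, ∃ x ∈ P, x * a * x⁻¹ = p * a) ∧ ∀ x ∈ P, x * a = a * x → x = 1 := by
  have hN : P.Normal := inferInstance
  obtain ⟨K, hK⟩ : ∃ K : Set Q, K = {k : Q | ∃ x ∈ P, k = x * a * x⁻¹} := ⟨_, rfl⟩
  have haK : a ∈ K := by rw [hK]; exact ⟨1, one_mem _, by group⟩
  have hKa : ∀ q : Q, q * a * q⁻¹ ∈ K := by
    intro q
    have hq : q ∈ P ⊔ centralizer {a} := by rw [hsup]; exact mem_top q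
    obtain ⟨x, hx, c, hc, rfl⟩ := mem_sup_of_normal_left.mp hq
    have hc' : a * c = c * a := mem_centralizer_iff.mp hc a rfl
    rw [hK]
    refine ⟨x, hx, ?_⟩
    calc x * c * a * (x * c)⁻¹ = x * (c * a) * c⁻¹ * x⁻¹ := by group
      _ = x * (a * c) * c⁻¹ * x⁻¹ := by rw [hc']
      _ = x * a * x⁻¹ := by group
  have hKq : ∀ k ∈ K, ∀ q : Q, q * k * q⁻¹ ∈ K := by
    intro k hk q
    rw [hK] at hk
    obtain ⟨x, hx, rfl⟩ := hk
    have := hKa (q * x)
    convert this using 1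
    group
  obtain ⟨D, hD⟩ : ∃ D : Set Q, D = {d : Q | ∃ q, d = q * (a * a) * q⁻¹} := ⟨_, rfl⟩
  have hDK : D.ncard ≤ K.ncard := by
    have h1 : D ⊆ (fun k => k * k) '' K := by
      rw [hD]
      rintro _ ⟨q, rfl⟩
      exact ⟨q * a * q⁻¹, hKa q, by group⟩
    exact (Set.ncard_le_ncard h1).trans (Set.ncard_image_le (Set.toFinite K))
  have himg : ∀ k' ∈ K, (fun k => k * k') '' K = D := by
    intro k' hk'
    apply Set.eq_of_subset_of_ncard_le
    · rintro _ ⟨k, hk, rfl⟩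
      rw [hK] at hk hk'
      obtain ⟨x, hx, rfl⟩ := hk
      obtain ⟨y, hy, rfl⟩ := hk'
      obtain ⟨γ, hγ⟩ := hstar a (y⁻¹ * x) (mul_mem (inv_mem hy) hx)
      rw [hD]
      refine ⟨y * γ⁻¹, ?_⟩
      rw [← hγ]
      group
    · rw [Set.ncard_image_of_injective K (mul_left_injective k')]
      exact hDK
    · exact Set.toFinite D
  have hdiv : ∀ k ∈ K, ∀ k' ∈ K, ∀ k'' ∈ K, k * (k' * k''⁻¹) ∈ K := by
    intro k hk k' hk' k'' hk''
    have h1 : k * k' ∈ (fun k => k * k'') '' K := by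
      rw [himg k'' hk'', ← himg k' hk']
      exact ⟨k, hk, rfl⟩
    obtain ⟨l, hl, h⟩ := h1
    have : k * (k' * k''⁻¹) = l := by
      rw [← mul_assoc, ← h]
      simp
    rw [this]
    exact hl
  obtain ⟨X, hX⟩ : ∃ X : Subgroup Q,
      X = closure {g : Q | ∃ k' ∈ K, ∃ k'' ∈ K, g = k' * k''⁻¹} := ⟨_, rfl⟩
  have hXN : X.Normal := by
    rw [hX]
    apply closure_normal_of_conj
    rintro _ ⟨k', hk', k'', hk'', rfl⟩ g
    exact ⟨_, hKq k' hk' g, _, hKq k'' hk'' g, by group⟩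
  have hXP : X ≤ P := by
    rw [hX, closure_le]
    rintro _ ⟨k', hk', k'', hk'', rfl⟩
    rw [hK] at hk' hk''
    obtain ⟨x, hx, rfl⟩ := hk'
    obtain ⟨y, hy, rfl⟩ := hk''
    have h1 : a * (x⁻¹ * y) * a⁻¹ ∈ P := hN.conj_mem _ (mul_mem (inv_mem hx) hy) a
    have h2 := mul_mem (mul_mem hx h1) (inv_mem hy)
    have e : x * a * x⁻¹ * (y * a * y⁻¹)⁻¹ = x * (a * (x⁻¹ * y) * a⁻¹) * y⁻¹ := by group
    rw [SetLike.mem_coe, e]
    exact h2
  have hXK : ∀ g ∈ X, ∀ k ∈ K, k * g ∈ K := by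
    intro g hg
    rw [hX] at hg
    induction hg using closure_induction with
    | mem x hx =>
      obtain ⟨k', hk', k'', hk'', rfl⟩ := hx
      exact fun k hk => hdiv k hk k' hk' k'' hk''
    | one => intro k hk; rwa [mul_one]
    | mul x y _ _ hx hy =>
      intro k hk
      rw [← mul_assoc]
      exact hy _ (hx k hk)
    | inv x _ hx =>
      intro k hk
      have hinj : Function.Injective (fun k : K => (⟨k.1 * x, hx k.1 k.2⟩ : K)) := by
        intro k l h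
        exact Subtype.ext (mul_right_cancel (Subtype.ext_iff.mp h))
      obtain ⟨l, hl⟩ := (Finite.injective_iff_surjective.mp hinj) ⟨k, hk⟩
      have h1 : l.1 * x = k := congrArg Subtype.val hl
      rw [← h1, mul_inv_cancel_right]
      exact l.2
  rcases hmin X hXN hXP with h | h
  · exfalso
    apply ha
    apply eq_one_of_comm hcen
    intro x hx
    have h1 : x * a * x⁻¹ * a⁻¹ ∈ X := by
      rw [hX]
      refine subset_closure ⟨_, ?_, _, haK, rfl⟩
      rw [hK]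
      exact ⟨x, hx, rfl⟩
    rw [h, mem_bot, mul_inv_eq_one, mul_inv_eq_iff_eq_mul] at h1
    exact h1
  · have hcos : ∀ p ∈ P, p * a ∈ K := by
      intro p hp
      have h1 := hXK (a⁻¹ * p * a) (by
        rw [h]
        have := hN.conj_mem p hp a⁻¹
        simpa using this) a haK
      convert h1 using 1
      group
    have hex : ∀ p ∈ P, ∃ x ∈ P, x * a * x⁻¹ = p * a := by
      intro p hp
      have := hcos p hp
      rw [hK] at this
      obtain ⟨x, hx, hxa⟩ := this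
      exact ⟨x, hx, hxa.symm⟩
    refine ⟨hex, ?_⟩
    -- the map `x ↦ x a x⁻¹ a⁻¹` of `P` to `P` is surjective, so injective
    have hmem : ∀ x ∈ P, x * a * x⁻¹ * a⁻¹ ∈ P := by
      intro x hx
      have h1 : a * x⁻¹ * a⁻¹ ∈ P := hN.conj_mem _ (inv_mem hx) a
      have := mul_mem hx h1
      convert this using 1
      group
    have hsurj : Function.Surjective (fun x : P => (⟨x.1 * a * x.1⁻¹ * a⁻¹, hmem x.1 x.2⟩ : P)) := by
      rintro ⟨p, hp⟩
      obtain ⟨x, hx, hxa⟩ := hex p hp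
      refine ⟨⟨x, hx⟩, Subtype.ext ?_⟩
      simp only [hxa]
      group
    have hinj := Finite.injective_iff_surjective.mpr hsurj
    intro x hx hxa
    have h2 : (⟨x, hx⟩ : P) = 1 := by
      apply hinj
      apply Subtype.ext
      simp only [OneMemClass.coe_one, one_mul, inv_one, mul_one, hxa]
      group
    exact congrArg Subtype.val h2

/-- A nontrivial normal subgroup of a nilpotent group contains a nontrivial central element. -/
theorem exists_central {H : Type*} [Group H] [hH : Group.IsNilpotent H] (N : Subgroup H)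
    [hN : N.Normal] (hne : N ≠ ⊥) : ∃ x ∈ N, x ≠ 1 ∧ ∀ g : H, g * x = x * g := by
  classical
  obtain ⟨n, hn⟩ := hH.nilpotent'
  have hex : ∃ i, N ⊓ Subgroup.upperCentralSeries H i ≠ ⊥ := ⟨n, by rw [hn, inf_top_eq]; exact hne⟩
  obtain ⟨i, hi, hlt⟩ : ∃ i, N ⊓ Subgroup.upperCentralSeries H i ≠ ⊥ ∧
      ∀ j < i, N ⊓ Subgroup.upperCentralSeries H j = ⊥ :=
    ⟨Nat.find hex, Nat.find_spec hex, fun j hj => not_not.mp (Nat.find_min hex hj)⟩
  obtain ⟨⟨x, hx⟩, hx1⟩ := (Subgroup.ne_bot_iff_exists_ne_one).mp hi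
  have hx1' : x ≠ 1 := fun h => hx1 (Subtype.ext h)
  rw [mem_inf] at hx
  cases i with
  | zero =>
    exfalso
    rw [Subgroup.upperCentralSeries_zero] at hx
    exact hx1' (mem_bot.mp hx.2)
  | succ i =>
    refine ⟨x, hx.1, hx1', fun g => ?_⟩
    have h1 : x * g * x⁻¹ * g⁻¹ ∈ Subgroup.upperCentralSeries H i :=
      (Subgroup.mem_upperCentralSeries_succ_iff).mp hx.2 g
    have h2 : x * g * x⁻¹ * g⁻¹ ∈ N := by
      have h3 := mul_mem hx.1 (hN.conj_mem _ (inv_mem hx.1) g)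
      convert h3 using 1
      group
    have h4 : x * g * x⁻¹ * g⁻¹ ∈ (⊥ : Subgroup H) := by
      rw [← hlt i (Nat.lt_succ_self i)]
      exact ⟨h2, h1⟩
    rw [mem_bot, mul_inv_eq_one, mul_inv_eq_iff_eq_mul] at h4
    exact h4.symm

/-- There is a supplement of `P` all of whose nontrivial elements are fixed point free. -/
theorem exists_supplement [Finite Q] [P.Normal] (hab : commutator Q ≤ P)
    (hfpf : ∀ a : Q, a ≠ 1 → P ⊔ centralizer {a} = ⊤ → ∀ x ∈ P, x * a = a * x → x = 1) :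
    ∃ H : Subgroup Q, P ⊔ H = ⊤ ∧ ∀ h ∈ H, h ≠ 1 → P ⊔ centralizer {h} = ⊤ := by
  classical
  have hN : P.Normal := inferInstance
  obtain ⟨H, hH, hmin⟩ : ∃ H : Subgroup Q, P ⊔ H = ⊤ ∧
      ∀ K : Subgroup Q, P ⊔ K = ⊤ → Nat.card H ≤ Nat.card K := by
    have hne : Nonempty {K : Subgroup Q // P ⊔ K = ⊤} := ⟨⟨⊤, by simp⟩⟩
    obtain ⟨K, hK⟩ := Finite.exists_min (fun K : {K : Subgroup Q // P ⊔ K = ⊤} => Nat.card K.1)
    exact ⟨K.1, K.2, fun L hL => hK ⟨L, hL⟩⟩
  have hmin' : ∀ K : Subgroup Q, K ≤ H → P ⊔ K = ⊤ → K = H := fun K hK h =>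
    Subgroup.eq_of_le_of_card_ge hK (hmin K h)
  have hnil : Group.IsNilpotent H := by
    apply ((Group.isNilpotent_of_finite_tfae (G := H)).out 0 2).mpr
    intro M hM
    have hPM : P.subgroupOf H ≤ M := by
      by_contra hcon
      have h1 : M ⊔ P.subgroupOf H = ⊤ := by
        apply hM.2
        exact lt_of_le_of_ne le_sup_left fun h => hcon (by rw [h]; exact le_sup_right)
      have h2 : P ⊔ M.map H.subtype = ⊤ := by
        rw [eq_top_iff, ← hH]
        refine sup_le le_sup_left fun x hx => ?_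
        have h3 : (⟨x, hx⟩ : H) ∈ M ⊔ P.subgroupOf H := by rw [h1]; exact mem_top _
        obtain ⟨y, hy, z, hz, hyz⟩ := mem_sup_of_normal_right.mp h3
        have h4 : y.1 * z.1 = x := congrArg Subtype.val hyz
        rw [← h4]
        exact mul_mem (mem_sup_right ⟨y, hy, rfl⟩) (mem_sup_left (mem_subgroupOf.mp hz))
      have h5 := hmin' _ (map_subtype_le M) h2
      apply hM.1
      rw [eq_top_iff]
      intro x _
      have h6 : x.1 ∈ M.map H.subtype := by rw [h5]; exact x.2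
      obtain ⟨y, hy, hyx⟩ := h6
      have : y = x := Subtype.ext hyx
      rwa [← this]
    apply Subgroup.Normal.of_commutator_le
    refine le_trans ?_ hPM
    rw [_root_.commutator_def, Subgroup.commutator_le]
    intro g _ h _
    rw [mem_subgroupOf]
    exact hab (commutator_mem_commutator (mem_top g.1) (mem_top h.1))
  have hbot : ∀ x ∈ H, x ∈ P → x = 1 := by
    by_contra hcon
    push Not at hcon
    obtain ⟨x, hxH, hxP, hx1⟩ := hcon
    have hne : P.subgroupOf H ≠ ⊥ := by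
      intro h
      have : (⟨x, hxH⟩ : H) ∈ P.subgroupOf H := mem_subgroupOf.mpr hxP
      rw [h, mem_bot] at this
      exact hx1 (congrArg Subtype.val this)
    obtain ⟨z, hz, hz1, hzc⟩ := exists_central (P.subgroupOf H) hne
    have hz1' : z.1 ≠ 1 := fun h => hz1 (Subtype.ext h)
    have hsup : P ⊔ centralizer {z.1} = ⊤ := by
      rw [eq_top_iff, ← hH]
      refine sup_le le_sup_left fun g hg => mem_sup_right ?_
      rw [mem_centralizer_iff]
      intro b hb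
      rw [Set.mem_singleton_iff.mp hb]
      exact (congrArg Subtype.val (hzc ⟨g, hg⟩)).symm
    exact hz1' (hfpf z.1 hz1' hsup z.1 (mem_subgroupOf.mp hz) rfl)
  refine ⟨H, hH, fun h hh _ => ?_⟩
  rw [eq_top_iff, ← hH]
  refine sup_le le_sup_left fun g hg => mem_sup_right ?_
  rw [mem_centralizer_iff]
  intro b hb
  rw [Set.mem_singleton_iff.mp hb]
  have h1 : h * g * h⁻¹ * g⁻¹ ∈ P :=
    hab (commutator_mem_commutator (mem_top h) (mem_top g))
  have h2 : h * g * h⁻¹ * g⁻¹ ∈ H := mul_mem (mul_mem (mul_mem hh hg) (inv_mem hh)) (inv_mem hg)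
  have h3 := hbot _ h2 h1
  rwa [mul_inv_eq_one, mul_inv_eq_iff_eq_mul] at h3

/-- **The finite group lemma.** `P` is a minimal normal subgroup of the finite group `Q` with trivial
centralizer and `Q / P` is abelian. There is no family `TT` of `P`-invariant sets covering `Q` such
that for every `ρ ∈ P` there is an abelian subgroup `B` commuting with `ρ` such that all pairs of
elements of a member of `TT` satisfy the product relation with a multiplier from `B`. -/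
theorem false_of_cover [Finite Q] (P : Subgroup Q) [P.Normal]
    (hmin : ∀ X : Subgroup Q, X.Normal → X ≤ P → X = ⊥ ∨ X = P) (hne : P ≠ ⊥)
    (hcen : centralizer (P : Set Q) = ⊥) (hab : commutator Q ≤ P) (TT : Set (Set Q))
    (hcov : ∀ a : Q, ∃ T ∈ TT, a ∈ T) (hnor : ∀ T ∈ TT, ∀ p ∈ P, ∀ a ∈ T, p * a * p⁻¹ ∈ T)
    (hrel : ∀ ρ ∈ P, ∃ B : Subgroup Q, (∀ x ∈ B, ∀ y ∈ B, x * y = y * x) ∧
      (∀ r ∈ B, r * ρ = ρ * r) ∧ ∀ T ∈ TT, ∀ a ∈ T, ∀ b ∈ T, ∃ r ∈ B, ∃ γ : Q,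
        γ * (r * a) = (r * a) * γ ∧ (ρ * γ * ρ) * (b * r⁻¹) = (b * r⁻¹) * (ρ * γ * ρ)) :
    False := by
  classical
  have hN : P.Normal := inferInstance
  have h0 : ∀ a : Q, ∀ ρ ∈ P, ∃ γ, γ * (ρ * (ρ * a * ρ⁻¹) * ρ⁻¹ * a) * γ⁻¹ = a * a := by
    intro a ρ hρ
    obtain ⟨T, hT, haT⟩ := hcov a
    obtain ⟨B, -, hBρ, hB⟩ := hrel ρ hρ
    obtain ⟨r, hr, γ, h1, h2⟩ := hB T hT a haT (ρ * a * ρ⁻¹) (hnor T hT ρ hρ a haT)
    refine ⟨γ, ?_⟩
    rw [conj_of_rel (hBρ r hr) h1 h2]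
    group
  have hinv : ∀ a : Q, a * a = 1 → a = 1 := fun a ha => eq_one_of_sq hmin hcen hne h0 ha
  have hcard : ¬ 2 ∣ Nat.card Q := by
    intro h
    obtain ⟨a, ha⟩ := exists_prime_orderOf_dvd_card' 2 h
    have h1 : a * a = 1 := by rw [← sq, ← ha, pow_orderOf_eq_one]
    rw [hinv a h1, orderOf_one] at ha
    omega
  have hsqrt : ∀ x ∈ P, ∃ y ∈ P, y * y = x := by
    intro x hx
    refine ⟨x ^ ((orderOf x + 1) / 2), pow_mem hx _, ?_⟩
    have h1 : ¬ 2 ∣ orderOf x := fun h => hcard (h.trans (orderOf_dvd_natCard x))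
    rw [← pow_add]
    have h2 : (orderOf x + 1) / 2 + (orderOf x + 1) / 2 = orderOf x + 1 := by omega
    rw [h2, pow_succ, pow_orderOf_eq_one, one_mul]
  have hstar : ∀ a : Q, ∀ x ∈ P, ∃ γ, γ * (x * a * x⁻¹ * a) * γ⁻¹ = a * a := by
    intro a x hx
    obtain ⟨y, hy, rfl⟩ := hsqrt x hx
    obtain ⟨γ, hγ⟩ := h0 a y hy
    refine ⟨γ, ?_⟩
    rw [← hγ]
    group
  have hfpf := fun (a : Q) (ha : a ≠ 1) (hsup : P ⊔ centralizer {a} = ⊤) =>
    fpf_of_sup hmin hcen hstar ha hsup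
  obtain ⟨H, hH, hHc⟩ := exists_supplement hab fun a ha hsup => (hfpf a ha hsup).2
  have hmem : ∀ q : Q, ∃ p ∈ P, ∃ h ∈ H, p * h = q := by
    intro q
    have : q ∈ P ⊔ H := by rw [hH]; exact mem_top q
    exact mem_sup_of_normal_left.mp this
  -- elements outside `P` have no fixed points in `P`
  have hout : ∀ q : Q, q ∉ P → ∀ x ∈ P, x * q = q * x → x = 1 := by
    intro q hq x hx hxq
    obtain ⟨p, hp, h, hh, rfl⟩ := hmem q
    have hh1 : h ≠ 1 := by
      rintro rfl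
      exact hq (by rwa [mul_one])
    obtain ⟨h1, h2⟩ := hfpf h hh1 (hHc h hh hh1)
    obtain ⟨y, hy, hyh⟩ := h1 p hp
    rw [← hyh] at hxq
    have h3 : y⁻¹ * x * y = 1 := by
      apply h2 _ (mul_mem (mul_mem (inv_mem hy) hx) hy)
      calc y⁻¹ * x * y * h = y⁻¹ * (x * (y * h * y⁻¹)) * y := by group
        _ = y⁻¹ * (y * h * y⁻¹ * x) * y := by rw [hxq]
        _ = h * (y⁻¹ * x * y) := by group
    calc x = y * (y⁻¹ * x * y) * y⁻¹ := by group
      _ = 1 := by rw [h3]; group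
  have hcent : ∀ r ∈ P, r ≠ 1 → ∀ q : Q, q * r = r * q → q ∈ P := by
    intro r hr hr1 q hq
    by_contra hcon
    exact hr1 (hout q hcon r hr hq.symm)
  have huniq : ∀ q : Q, q ∉ P → ∀ g g' : Q, g * q = q * g → g' * q = q * g' → g⁻¹ * g' ∈ P →
      g = g' := by
    intro q hq g g' hg hg' hgg
    have h1 : g⁻¹ * g' = 1 := by
      apply hout q hq _ hgg
      have h2 : g⁻¹ * q = q * g⁻¹ := by
        rw [eq_mul_inv_iff_mul_eq, mul_assoc, ← hg, inv_mul_cancel_left]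
      rw [mul_assoc, hg', ← mul_assoc, h2, mul_assoc]
    exact (inv_mul_eq_one.mp h1)
  -- an element outside `P`
  obtain ⟨x₀, hx₀, hx₀1⟩ : ∃ x ∈ P, x ≠ 1 := by
    by_contra hcon
    push Not at hcon
    exact hne ((eq_bot_iff_forall _).mpr hcon)
  obtain ⟨q₀, hq₀⟩ : ∃ q : Q, q ∉ P := by
    by_contra hcon
    push Not at hcon
    have hsup : P ⊔ centralizer {x₀} = ⊤ := by
      rw [eq_top_iff]
      exact fun q _ => mem_sup_left (hcon q)
    exact hx₀1 ((hfpf x₀ hx₀1 hsup).2 x₀ hx₀ rfl)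
  obtain ⟨p₀, hp₀, a₀, ha₀H, ha₀⟩ := hmem q₀
  have ha₀P : a₀ ∉ P := fun h => hq₀ (by rw [← ha₀]; exact mul_mem hp₀ h)
  have ha₀1 : a₀ ≠ 1 := fun h => ha₀P (by rw [h]; exact one_mem _)
  obtain ⟨T, hT, ha₀T⟩ := hcov a₀
  have hTP : ∀ p ∈ P, p * a₀ ∈ T := by
    intro p hp
    obtain ⟨x, hx, h⟩ := (hfpf a₀ ha₀1 (hHc a₀ ha₀H ha₀1)).1 p hp
    rw [← h]
    exact hnor T hT x hx a₀ ha₀T
  obtain ⟨B, hBab, hBρ, hB⟩ := hrel x₀ hx₀
  have hBP : B ≤ P := fun r hr => hcent x₀ hx₀ hx₀1 r (hBρ r hr)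
  have hm1 : Nat.card (Option {c : Q ⧸ P // c ≠ 1}) = Nat.card (Q ⧸ P) :=
    Nat.card_congr (Equiv.optionSubtypeNe 1)
  rw [Finite.card_option] at hm1
  -- the bound from the product relation
  have hbound : Nat.card P ≤ Nat.card B * Nat.card {c : Q ⧸ P // c ≠ 1} := by
    have h1 : ∀ p : P, ∃ r : B, ∃ γ : Q, γ * (r.1 * a₀) = (r.1 * a₀) * γ ∧
        (x₀ * γ * x₀) * (p.1 * a₀ * r.1⁻¹) = (p.1 * a₀ * r.1⁻¹) * (x₀ * γ * x₀) := by
      intro p
      obtain ⟨r, hr, γ, h1, h2⟩ := hB T hT a₀ ha₀T (p.1 * a₀) (hTP p.1 p.2)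
      exact ⟨⟨r, hr⟩, γ, h1, h2⟩
    choose r γ hγ1 hγ2 using h1
    have hra : ∀ p, (r p).1 * a₀ ∉ P := fun p h =>
      ha₀P (by
        have := mul_mem (inv_mem (hBP (r p).2)) h
        rwa [inv_mul_cancel_left] at this)
    have hpa : ∀ p : P, p.1 * a₀ * (r p).1⁻¹ ∉ P := fun p h => by
      have h1 := mul_mem (inv_mem p.2) (mul_mem h (hBP (r p).2))
      rw [inv_mul_cancel_right, inv_mul_cancel_left] at h1
      exact ha₀P h1
    have hγP : ∀ p, γ p ∉ P := by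
      intro p h
      have h1 : γ p = 1 := hout _ (hra p) _ h (hγ1 p)
      have h2 := hγ2 p
      rw [h1, mul_one] at h2
      have h3 := hout _ (hpa p) _ (mul_mem hx₀ hx₀) h2
      exact hx₀1 (hinv _ h3)
    have hδP : ∀ p, x₀ * γ p * x₀ ∉ P := fun p h => hγP p (by
      have := mul_mem (mul_mem (inv_mem hx₀) h) (inv_mem hx₀)
      convert this using 1
      group)
    have hinj : Function.Injective
        (fun p : P => ((r p, ⟨(γ p : Q ⧸ P), fun h => hγP p ((QuotientGroup.eq_one_iff _).mp h)⟩) :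
          B × {c : Q ⧸ P // c ≠ 1})) := by
      intro p p' h
      have e1 : r p = r p' := congrArg Prod.fst h
      have e2 : ((γ p : Q) : Q ⧸ P) = ((γ p' : Q) : Q ⧸ P) :=
        congrArg Subtype.val (congrArg Prod.snd h)
      have e3 : γ p = γ p' := by
        apply huniq _ (hra p) _ _ (hγ1 p)
        · have := hγ1 p'
          rwa [← e1] at this
        · exact QuotientGroup.eq.mp e2
      have h4 := hγ2 p
      have h5 := hγ2 p'
      rw [← e1, ← e3] at h5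
      have h6 : p.1 * a₀ * (r p).1⁻¹ = p'.1 * a₀ * (r p).1⁻¹ := by
        apply huniq _ (hδP p) _ _ h4.symm h5.symm
        have h7 : (r p).1 * (a₀⁻¹ * (p.1⁻¹ * p'.1) * a₀⁻¹⁻¹) * (r p).1⁻¹ ∈ P :=
          mul_mem (mul_mem (hBP (r p).2)
            (hN.conj_mem _ (mul_mem (inv_mem p.2) p'.2) a₀⁻¹)) (inv_mem (hBP (r p).2))
        convert h7 using 1
        group
      exact Subtype.ext (mul_right_cancel (mul_right_cancel h6))
    calc Nat.card P ≤ Nat.card (B × {c : Q ⧸ P // c ≠ 1}) :=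
          Nat.card_le_card_of_injective _ hinj
      _ = _ := Nat.card_prod _ _
  -- Chermak-Delgado
  have hCD : Nat.card B ^ 2 ≤ Nat.card P := by
    by_contra hcon
    push Not at hcon
    have h1 : Nat.card (B.subgroupOf P) = Nat.card B :=
      Nat.card_congr (subgroupOfEquivOfLe hBP).toEquiv
    rw [← h1] at hcon
    obtain ⟨A, hA1, hA2, hA3⟩ := exists_char_abelian (B.subgroupOf P) (by
      intro a ha b hb
      exact Subtype.ext (hBab _ (mem_subgroupOf.mp ha) _ (mem_subgroupOf.mp hb))) hcon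
    exact hA1 (char_eq_bot hmin hcen hne A hA2 hA3)
  -- Sylow subgroups
  have hsyl : ∀ p : ℕ, p.Prime → p ∣ Nat.card P → ∃ S : Subgroup P, IsPGroup p S ∧
      Nat.card (Q ⧸ P) + 1 ≤ Nat.card S := by
    intro p hp hpd
    have : Fact p.Prime := ⟨hp⟩
    obtain ⟨S⟩ : Nonempty (Sylow p P) := inferInstance
    refine ⟨S, S.isPGroup', ?_⟩
    have hSne : (S : Subgroup P) ≠ ⊥ := S.ne_bot_of_dvd_card hpd
    obtain ⟨⟨s, hs⟩, hs1⟩ := (Subgroup.ne_bot_iff_exists_ne_one).mp hSne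
    have hs1' : s.1 ≠ 1 := fun h => hs1 (Subtype.ext (Subtype.ext h))
    have hfr := Sylow.normalizer_sup_eq_top S
    have h1 : ∀ c : Q ⧸ P, ∃ n : Q, n ∈ normalizer ((S : Subgroup P).map P.subtype) ∧
        (n : Q ⧸ P) = c := by
      intro c
      obtain ⟨g, rfl⟩ := QuotientGroup.mk_surjective c
      have : g ∈ normalizer ((S : Subgroup P).map P.subtype) ⊔ P := by
        rw [hfr]; exact mem_top g
      obtain ⟨n, hn, x, hx, rfl⟩ := mem_sup_of_normal_right.mp this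
      refine ⟨n, hn, ?_⟩
      rw [QuotientGroup.eq]
      simpa using hx
    choose n hn hnc using h1
    have h2 : ∀ c, ∃ t : (S : Subgroup P), t.1.1 = n c * s.1 * (n c)⁻¹ := by
      intro c
      have h3 : n c * s.1 * (n c)⁻¹ ∈ (S : Subgroup P).map P.subtype :=
        (mem_normalizer_iff.mp (hn c) s.1).mp ⟨s, hs, rfl⟩
      obtain ⟨t, ht, ht'⟩ := h3
      exact ⟨⟨t, ht⟩, ht'⟩
    choose t ht using h2
    have hinj : Function.Injective (fun o : Option (Q ⧸ P) => o.elim (1 : (S : Subgroup P)) t) := by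
      have hne1 : ∀ c, t c ≠ 1 := by
        intro c h
        have h3 := ht c
        rw [h] at h3
        simp only [OneMemClass.coe_one] at h3
        rw [eq_comm, mul_inv_eq_one, mul_eq_left] at h3
        exact hs1' h3
      rintro (_ | c) (_ | c') h
      · rfl
      · exact absurd h.symm (hne1 c')
      · exact absurd h (hne1 c)
      · have h4 : n c * s.1 * (n c)⁻¹ = n c' * s.1 * (n c')⁻¹ := by
          rw [← ht, ← ht]
          exact congrArg (fun u : (S : Subgroup P) => u.1.1) h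
        have h5 : (n c)⁻¹ * n c' ∈ P := by
          apply hcent s.1 s.2 hs1'
          calc (n c)⁻¹ * n c' * s.1 = (n c)⁻¹ * (n c' * s.1 * (n c')⁻¹) * n c' := by group
            _ = (n c)⁻¹ * (n c * s.1 * (n c)⁻¹) * n c' := by rw [h4]
            _ = s.1 * ((n c)⁻¹ * n c') := by group
        have h6 : c = c' := by
          rw [← hnc c, ← hnc c']
          exact QuotientGroup.eq.mpr h5
        rw [h6]
    calc Nat.card (Q ⧸ P) + 1 = Nat.card (Option (Q ⧸ P)) := (Finite.card_option).symm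
      _ ≤ _ := Nat.card_le_card_of_injective _ hinj
  -- two different primes
  have hPne : Nontrivial P := (Subgroup.nontrivial_iff_ne_bot P).mpr hne
  have hP1 : Nat.card P ≠ 1 := by
    intro h
    exact hne (Subgroup.card_eq_one.mp h)
  obtain ⟨p, hp, hpd⟩ := Nat.exists_prime_and_dvd hP1
  obtain ⟨q, hq, hqd, hqp⟩ : ∃ q : ℕ, q.Prime ∧ q ∣ Nat.card P ∧ q ≠ p := by
    by_contra hcon
    push Not at hcon
    have : Fact p.Prime := ⟨hp⟩
    have h1 := Nat.eq_prime_pow_of_unique_prime_dvd (n := Nat.card P) (p := p)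
      Nat.card_pos.ne' (fun {d} hd hdd => hcon d hd hdd)
    have h2 : IsPGroup p P := IsPGroup.of_card h1
    have h3 : Nontrivial (center P) := h2.center_nontrivial
    have h4 : center P = ⊥ := char_eq_bot hmin hcen hne (center P) inferInstance
      fun a ha b _ => (mem_center_iff.mp ha b).symm
    exact (Subgroup.nontrivial_iff_ne_bot _).mp h3 h4
  obtain ⟨S, hS, hSc⟩ := hsyl p hp hpd
  obtain ⟨S', hS', hSc'⟩ := hsyl q hq hqd
  have hge : (Nat.card (Q ⧸ P) + 1) * (Nat.card (Q ⧸ P) + 1) ≤ Nat.card P := by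
    have : Fact p.Prime := ⟨hp⟩
    have : Fact q.Prime := ⟨hq⟩
    refine le_trans (Nat.mul_le_mul hSc hSc') (Nat.le_of_dvd Nat.card_pos ?_)
    exact Nat.Coprime.mul_dvd_of_dvd_of_dvd
      (IsPGroup.coprime_card_of_ne p q hqp.symm S S' hS hS')
      (Subgroup.card_subgroup_dvd_card S) (Subgroup.card_subgroup_dvd_card S')
  -- arithmetic
  obtain ⟨m, hm⟩ : ∃ m, m = Nat.card {c : Q ⧸ P // c ≠ 1} := ⟨_, rfl⟩
  rw [← hm] at hbound hm1
  rw [← hm1] at hge
  have hpos : 0 < Nat.card P := Nat.card_pos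
  have h1 : Nat.card P * Nat.card P ≤ Nat.card P * (m * m) := by
    calc Nat.card P * Nat.card P ≤ (Nat.card B * m) * (Nat.card B * m) :=
          Nat.mul_le_mul hbound hbound
      _ = Nat.card B ^ 2 * (m * m) := by ring
      _ ≤ Nat.card P * (m * m) := Nat.mul_le_mul_right _ hCD
  have h2 : Nat.card P ≤ m * m := Nat.le_of_mul_le_mul_left h1 hpos
  nlinarith

end

end Vale.Agent.P011.H861
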