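import Vale.Agent.P011.H861.PairGrp
import Mathlib.Data.Real.Basic
import Mathlib.Algebra.BigOperators.Group.Finset.Basic
import Mathlib.Algebra.Order.BigOperators.Group.Finset

/-!
The finite group lemma for pairs of colours: `P` is a minimal normal subgroup with trivial
centralizer of the finite group `Q`, `E` is a law on the pairs of commuting elements which is
invariant under two families of twisted conjugations; then the label `s` is trivial.
-/

namespace Vale.Agent.P011.H861.Pair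

open Finset

variable {Q : Type*} [Group Q] [Fintype Q] {P : Subgroup Q}

/-- A function `p ≥ 0` of sum `1` which is left invariant under `T` gives mass `≤ 1 / |T|` to the
centralizer of `T` if `T` has trivial centre. -/
theorem card_mul_sum_le {T : Subgroup Q} (hZ : ∀ t ∈ T, t ∈ Subgroup.centralizer (T : Set Q) →
    t = 1) {p : Q → ℝ} (hp : ∀ a, 0 ≤ p a) (hsum : ∑ a, p a = 1)
    (hinv : ∀ t ∈ T, ∀ a, p (t * a) = p a) (C : Finset Q)
    (hC : ∀ a ∈ C, a ∈ Subgroup.centralizer (T : Set Q)) :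
    (Nat.card T : ℝ) * (∑ a ∈ C, p a) ≤ 1 := by
  classical
  have h1 : (Nat.card T : ℝ) * (∑ a ∈ C, p a) = ∑ x : T × C, p ((x.1 : Q) * (x.2 : Q)) := by
    rw [Fintype.sum_prod_type]
    have : ∀ t : T, ∑ c : C, p ((t : Q) * (c : Q)) = ∑ a ∈ C, p a := by
      intro t
      rw [← Finset.sum_coe_sort C]
      exact Finset.sum_congr rfl fun c _ => hinv t t.2 c
    simp only [this, Finset.sum_const, Finset.card_univ, nsmul_eq_mul, Nat.card_eq_fintype_card]
  have hinj : Function.Injective (fun x : T × C => (x.1 : Q) * (x.2 : Q)) := by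
    rintro ⟨⟨t, ht⟩, ⟨a, ha⟩⟩ ⟨⟨t', ht'⟩, ⟨a', ha'⟩⟩ h
    have h' : t * a = t' * a' := h
    have h2 : t'⁻¹ * t = a' * a⁻¹ := by
      rw [eq_mul_inv_iff_mul_eq, mul_assoc, h', inv_mul_cancel_left]
    have h3 : t'⁻¹ * t = 1 := hZ _ (mul_mem (inv_mem ht') ht) (by
      rw [h2]; exact mul_mem (hC _ ha') (inv_mem (hC _ ha)))
    have h4 : t = t' := (inv_mul_eq_one.1 h3).symm
    have h5 : a = a' := by
      rw [h4] at h'
      exact mul_left_cancel h'
    subst h4 h5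
    rfl
  rw [h1, ← hsum, ← Finset.sum_image (f := p) (g := fun x : T × C => (x.1 : Q) * (x.2 : Q))
    (s := univ) (fun x _ y _ h => hinj h)]
  exact Finset.sum_le_sum_of_subset_of_nonneg (Finset.subset_univ _) fun a _ _ => hp a

/-- **The group lemma for pairs.** -/
theorem eq_one_aux (hP : P.Normal)
    (hPmin : ∀ X : Subgroup Q, X.Normal → X ≤ P → X = ⊥ ∨ X = P)
    (hcen : Subgroup.centralizer (P : Set Q) = ⊥) {s : Q} {E : Q → Q → ℝ} {p : Q → ℝ}
    (hE : ∀ a z, 0 ≤ E a z) (hp1 : ∀ a, ∑ z, E a z = p a)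
    (hp2 : ∀ z, ∑ a, E a z = p (s⁻¹ * z)) (hsum : ∑ a, p a = 1)
    (I1 : ∀ g ∈ P, ∀ a z, E (g * a * g⁻¹) (g * z * g⁻¹) = E a z)
    (I2 : ∀ g ∈ P, ∀ a z, E (g * a * g⁻¹) (s * g * s⁻¹ * z * (s⁻¹ * g⁻¹ * s)) = E a z)
    (hC : ∀ a z, E a z ≠ 0 → Commute a z) : s = 1 := by
  classical
  -- invariance of `p`
  have hp0 : ∀ a, 0 ≤ p a := fun a => by rw [← hp1]; exact Finset.sum_nonneg fun z _ => hE a z
  have pconj : ∀ g ∈ P, ∀ a, p (g * a * g⁻¹) = p a := by
    intro g hg a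
    rw [← hp1, ← hp1, ← Equiv.sum_comp (MulAut.conj g).toEquiv]
    exact Finset.sum_congr rfl fun z _ => I1 g hg a z
  have pleft : ∀ g ∈ P, ∀ y, p (g⁻¹ * (s⁻¹ * g * s) * y) = p y := by
    intro g hg y
    have h1 : p (s⁻¹ * (g * (s * y) * g⁻¹)) = p (s⁻¹ * (s * y)) := by
      rw [← hp2, ← hp2, ← Equiv.sum_comp (MulAut.conj g).toEquiv]
      exact Finset.sum_congr rfl fun a _ => I1 g hg a (s * y)
    rw [inv_mul_cancel_left] at h1
    rw [← h1, ← pconj g⁻¹ (inv_mem hg) (s⁻¹ * (g * (s * y) * g⁻¹))]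
    congr 1
    group
  -- the group `K = [P, s]`
  obtain ⟨K, hK⟩ : ∃ K : Subgroup Q,
      K = Subgroup.closure {x : Q | ∃ g ∈ P, x = g⁻¹ * (s⁻¹ * g * s)} := ⟨_, rfl⟩
  have hmem : ∀ g ∈ P, g⁻¹ * (s⁻¹ * g * s) ∈ K := fun g hg => by
    rw [hK]; exact Subgroup.subset_closure ⟨g, hg, rfl⟩
  have hsP : ∀ g ∈ P, s⁻¹ * g * s ∈ P := fun g hg => by
    simpa using hP.conj_mem g hg s⁻¹
  have hsP' : ∀ g ∈ P, s * g * s⁻¹ ∈ P := fun g hg => hP.conj_mem g hg s
  have hKP : K ≤ P := by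
    rw [hK, Subgroup.closure_le]
    rintro x ⟨g, hg, rfl⟩
    exact mul_mem (inv_mem hg) (hsP g hg)
  have hKn : Pn P K := by
    rw [hK]
    refine Pn.closure ?_
    rintro h hh x ⟨g, hg, rfl⟩
    have e : h * (g⁻¹ * (s⁻¹ * g * s)) * h⁻¹ =
        (g * h⁻¹)⁻¹ * (s⁻¹ * (g * h⁻¹) * s) * ((h⁻¹)⁻¹ * (s⁻¹ * h⁻¹ * s))⁻¹ := by group
    rw [e, ← hK]
    exact mul_mem (hmem _ (mul_mem hg (inv_mem hh))) (inv_mem (hmem _ (inv_mem hh)))
  have pK : ∀ x ∈ K, ∀ y, p (x * y) = p y := by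
    intro x hx
    rw [hK] at hx
    induction hx using Subgroup.closure_induction with
    | mem x hx => obtain ⟨g, hg, rfl⟩ := hx; exact pleft g hg
    | one => intro y; rw [one_mul]
    | mul a b _ _ h1 h2 => intro y; rw [mul_assoc, h1, h2]
    | inv a _ h1 => intro y; rw [← h1 (a⁻¹ * y), mul_inv_cancel_left]
  have hsupp : ∃ a, p a ≠ 0 := by
    by_contra hcon
    push Not at hcon
    rw [Finset.sum_eq_zero fun a _ => hcon a] at hsum
    exact zero_ne_one hsum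
  have hsuppE : ∀ a, p a ≠ 0 → ∃ z, E a z ≠ 0 := by
    intro a ha
    by_contra hcon
    push Not at hcon
    exact ha (by rw [← hp1]; exact Finset.sum_eq_zero fun z _ => hcon z)
  -- the right stabiliser of `E`
  obtain ⟨X, hX⟩ : ∃ X : Subgroup Q, ∀ y, y ∈ X ↔ ∀ a z, E a (z * y) = E a z := by
    refine ⟨{ carrier := {y | ∀ a z, E a (z * y) = E a z}
              mul_mem' := fun {x y} hx hy a z => by rw [← mul_assoc, hy, hx]
              one_mem' := fun a z => by rw [mul_one]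
              inv_mem' := fun {x} hx a z => by rw [← hx a (z * x⁻¹), inv_mul_cancel_right] },
      fun y => Iff.rfl⟩
  have hXn : Pn P X := by
    intro g hg y hy
    rw [hX] at hy ⊢
    intro a z
    rw [← I1 g⁻¹ (inv_mem hg) a (z * (g * y * g⁻¹)), ← I1 g⁻¹ (inv_mem hg) a z]
    have e : g⁻¹ * (z * (g * y * g⁻¹)) * g⁻¹⁻¹ = g⁻¹ * z * g⁻¹⁻¹ * y := by group
    rw [e, hy]
  have hXa : ∀ a, p a ≠ 0 → ∀ y ∈ X, Commute a y := by
    intro a ha y hy
    obtain ⟨z, hz⟩ := hsuppE a ha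
    have h1 := hC a z hz
    have h2 := hC a (z * y) (by rw [(hX y).1 hy]; exact hz)
    have e : y = z⁻¹ * (z * y) := by group
    rw [e]
    exact h1.inv_right.mul_right h2
  have hXK : ∀ x ∈ K, ∀ y ∈ X, Commute x y := by
    intro x hx y hy
    obtain ⟨a, ha⟩ := hsupp
    have h1 := hXa a ha y hy
    have h2 := hXa (x * a) (by rw [pK x hx]; exact ha) y hy
    have e : x = (x * a) * a⁻¹ := by group
    rw [e]
    exact h2.mul_left h1.inv_left
  have hXK' : X ⊓ K = ⊥ :=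
    no_abelian hP hPmin hcen (inf_le_right.trans hKP) (hXn.inf hKn)
      fun x hx y hy => (hXK y hy.2 x hx.1).symm
  -- the invariance under `z ↦ k z κ⁻¹`
  have sig : ∀ g ∈ P, ∀ a z, E a (g⁻¹ * (s * g * s⁻¹) * z * (g⁻¹ * (s⁻¹ * g * s))⁻¹) = E a z := by
    intro g hg a z
    rw [← I2 g hg a z, ← I1 g⁻¹ (inv_mem hg) (g * a * g⁻¹)]
    congr 1 <;> group
  -- `s² = 1`
  have hm : ∀ h ∈ P, ∀ g ∈ P,
      Commute (h⁻¹ * (s⁻¹ * (s⁻¹ * h * s) * s)) (g⁻¹ * (s⁻¹ * g * s)) := by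
    intro h hh g hg
    obtain ⟨τ, hτ⟩ : ∃ τ, τ = s⁻¹ * (s⁻¹ * h * s) * s := ⟨_, rfl⟩
    obtain ⟨κ, hκ⟩ : ∃ κ, κ = g⁻¹ * (s⁻¹ * g * s) := ⟨_, rfl⟩
    obtain ⟨k, hk⟩ : ∃ k, k = g⁻¹ * (s * g * s⁻¹) := ⟨_, rfl⟩
    have hτP : τ ∈ P := by rw [hτ]; exact hsP _ (hsP h hh)
    have hκK : κ ∈ K := by rw [hκ]; exact hmem g hg
    have hκP : κ ∈ P := hKP hκK
    have sg : ∀ a z, E a (k * z * κ⁻¹) = E a z := by
      intro a z; rw [hk, hκ]; exact sig g hg a z
    have sg' : ∀ a z, E a (k⁻¹ * z * κ) = E a z := by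
      intro a z
      rw [← sg a (k⁻¹ * z * κ)]
      congr 1; group
    -- (A)
    have hA : ∀ a z, E a (k * h * k⁻¹ * h⁻¹ * z * (h * κ * h⁻¹ * κ⁻¹)) = E a z := by
      intro a z
      have e1 : k * h * k⁻¹ * h⁻¹ * z * (h * κ * h⁻¹ * κ⁻¹) =
          k * (h * (k⁻¹ * (h⁻¹ * z * h) * κ) * h⁻¹) * κ⁻¹ := by group
      rw [e1, sg, ← I1 h⁻¹ (inv_mem hh), ← I1 h⁻¹ (inv_mem hh) a z]
      have e2 : h⁻¹ * (h * (k⁻¹ * (h⁻¹ * z * h) * κ) * h⁻¹) * h⁻¹⁻¹ =
          k⁻¹ * (h⁻¹ * z * h⁻¹⁻¹) * κ := by group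
      rw [e2, sg']
    -- (B)
    have hB : ∀ a z, E a (k * h * k⁻¹ * h⁻¹ * z * (τ * κ * τ⁻¹ * κ⁻¹)) = E a z := by
      intro a z
      obtain ⟨g', hg'⟩ : ∃ g', g' = s⁻¹ * h * s := ⟨_, rfl⟩
      have hg'P : g' ∈ P := by rw [hg']; exact hsP h hh
      have J : ∀ a z, E (g' * a * g'⁻¹) (h * z * τ⁻¹) = E a z := by
        intro a z
        rw [← I2 g' hg'P a z]
        congr 1
        rw [hg', hτ]; simp [mul_assoc]
      have J' : ∀ a z, E a (h * z * τ⁻¹) = E (g'⁻¹ * a * g') z := by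
        intro a z
        rw [← J (g'⁻¹ * a * g') z]
        congr 1; group
      have e1 : k * h * k⁻¹ * h⁻¹ * z * (τ * κ * τ⁻¹ * κ⁻¹) =
          k * (h * (k⁻¹ * (h⁻¹ * z * τ) * κ) * τ⁻¹) * κ⁻¹ := by group
      have e2 : E a z = E a (h * (h⁻¹ * z * τ) * τ⁻¹) := by
        congr 1; group
      rw [e1, sg, J', sg', e2, J']
    have hc : (τ * κ * τ⁻¹ * κ⁻¹)⁻¹ * (h * κ * h⁻¹ * κ⁻¹) ∈ X := by
      rw [hX]
      intro a u
      obtain ⟨w, hw⟩ : ∃ w, w = k * h * k⁻¹ * h⁻¹ := ⟨_, rfl⟩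
      have h1 := hA a (w⁻¹ * (u * (τ * κ * τ⁻¹ * κ⁻¹)⁻¹))
      have h2 := hB a (w⁻¹ * (u * (τ * κ * τ⁻¹ * κ⁻¹)⁻¹))
      rw [← hw, mul_inv_cancel_left] at h1 h2
      rw [inv_mul_cancel_right] at h2
      rw [← mul_assoc, h1, ← h2]
    -- conjugate into the commutator of `m` and `κ`
    have hc2 : (h⁻¹ * τ) * κ⁻¹ * (h⁻¹ * τ)⁻¹ * κ ∈ X := by
      have h1 := hXn (h⁻¹ * κ⁻¹) (mul_mem (inv_mem hh) (inv_mem hκP)) _ hc
      have e : (h⁻¹ * κ⁻¹) * ((τ * κ * τ⁻¹ * κ⁻¹)⁻¹ * (h * κ * h⁻¹ * κ⁻¹)) * (h⁻¹ * κ⁻¹)⁻¹ =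
          (h⁻¹ * τ) * κ⁻¹ * (h⁻¹ * τ)⁻¹ * κ := by group
      rwa [e] at h1
    have hmK : h⁻¹ * τ ∈ K := by
      have e : h⁻¹ * τ = (h⁻¹ * (s⁻¹ * h * s)) *
          ((s⁻¹ * h * s)⁻¹ * (s⁻¹ * (s⁻¹ * h * s) * s)) := by rw [hτ]; group
      rw [e]
      exact mul_mem (hmem h hh) (hmem _ (hsP h hh))
    have hc3 : (h⁻¹ * τ) * κ⁻¹ * (h⁻¹ * τ)⁻¹ * κ ∈ X ⊓ K :=
      Subgroup.mem_inf.2 ⟨hc2, mul_mem (mul_mem (mul_mem hmK (inv_mem hκK)) (inv_mem hmK)) hκK⟩
    rw [hXK', Subgroup.mem_bot] at hc3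
    rw [← hτ, ← hκ]
    have h4 : (h⁻¹ * τ) * κ⁻¹ = κ⁻¹ * (h⁻¹ * τ) := by
      have h5 : (h⁻¹ * τ) * κ⁻¹ * (h⁻¹ * τ)⁻¹ = κ⁻¹ := eq_inv_of_mul_eq_one_left hc3
      rwa [mul_inv_eq_iff_eq_mul] at h5
    exact (Commute.inv_right_iff.1 h4)
  have hss : s * s = 1 := by
    have h1 : s * s ∈ Subgroup.centralizer (P : Set Q) := by
      rw [Subgroup.mem_centralizer_iff]
      intro h hh
      have hzK : K ⊓ Subgroup.centralizer (K : Set Q) = ⊥ :=
        no_abelian hP hPmin hcen (inf_le_left.trans hKP) hKn.center fun x hx y hy =>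
          (Subgroup.mem_centralizer_iff.1 (Subgroup.mem_inf.1 hx).2 y
            (Subgroup.mem_inf.1 hy).1).symm
      have h2 : h⁻¹ * (s⁻¹ * (s⁻¹ * h * s) * s) ∈ K ⊓ Subgroup.centralizer (K : Set Q) := by
        refine Subgroup.mem_inf.2 ⟨?_, ?_⟩
        · have e : h⁻¹ * (s⁻¹ * (s⁻¹ * h * s) * s) = (h⁻¹ * (s⁻¹ * h * s)) *
              ((s⁻¹ * h * s)⁻¹ * (s⁻¹ * (s⁻¹ * h * s) * s)) := by group
          rw [e]
          exact mul_mem (hmem h hh) (hmem _ (hsP h hh))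
        · have h3 : K ≤ Subgroup.centralizer {h⁻¹ * (s⁻¹ * (s⁻¹ * h * s) * s)} := by
            rw [hK, Subgroup.closure_le]
            rintro x ⟨g, hg, rfl⟩
            rw [SetLike.mem_coe, Subgroup.mem_centralizer_singleton_iff]
            exact (hm h hh g hg).eq.symm
          rw [Subgroup.mem_centralizer_iff]
          intro x hx
          have := h3 hx
          rw [Subgroup.mem_centralizer_singleton_iff] at this
          exact this
      rw [hzK, Subgroup.mem_bot, inv_mul_eq_one] at h2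
      have e : h * (s * s) = (s * s) * (s⁻¹ * (s⁻¹ * h * s) * s) := by group
      rw [e, ← h2]
    rw [hcen, Subgroup.mem_bot] at h1
    exact h1
  have hs' : s⁻¹ = s := inv_eq_of_mul_eq_one_left hss
  -- now suppose `s ≠ 1`
  by_contra hs1
  have hKne : K ≠ ⊥ := by
    intro hK0
    refine hs1 ?_
    have h1 : s ∈ Subgroup.centralizer (P : Set Q) := by
      rw [Subgroup.mem_centralizer_iff]
      intro h hh
      have h2 := hmem h hh
      rw [hK0, Subgroup.mem_bot, inv_mul_eq_one] at h2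
      calc h * s = s * (s⁻¹ * h * s) := by group
        _ = s * h := by rw [← h2]
    rwa [hcen, Subgroup.mem_bot] at h1
  have kinv : ∀ x ∈ K, ∀ a z, E a (x * z * x⁻¹) = E a z := by
    intro x hx
    rw [hK] at hx
    induction hx using Subgroup.closure_induction with
    | mem x hx =>
      obtain ⟨g, hg, rfl⟩ := hx
      intro a z
      have := sig g hg a z
      rw [hs'] at this ⊢
      exact this
    | one => intro a z; simp
    | mul x y _ _ h1 h2 =>
      intro a z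
      have e : x * y * z * (x * y)⁻¹ = x * (y * z * y⁻¹) * x⁻¹ := by group
      rw [e, h1, h2]
    | inv x _ h1 =>
      intro a z
      rw [← h1 a (x⁻¹ * z * x⁻¹⁻¹)]
      congr 1; group
  have kinv' : ∀ x ∈ K, ∀ a z, E (x * a * x⁻¹) z = E a z := by
    intro x hx a z
    rw [← kinv x hx (x * a * x⁻¹) z, I1 x (hKP hx)]
  obtain ⟨T, hTK, hT, hTn, hTmin⟩ := exists_min hKn hKne
  have hTP : T ≤ P := hTK.trans hKP
  have hZ : ∀ t ∈ T, t ∈ Subgroup.centralizer (T : Set Q) → t = 1 := by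
    have h1 : T ⊓ Subgroup.centralizer (T : Set Q) = ⊥ :=
      no_abelian hP hPmin hcen (inf_le_left.trans hTP) hTn.center fun x hx y hy =>
        (Subgroup.mem_centralizer_iff.1 (Subgroup.mem_inf.1 hx).2 y
          (Subgroup.mem_inf.1 hy).1).symm
    intro t ht ht'
    have : t ∈ T ⊓ Subgroup.centralizer (T : Set Q) := ⟨ht, ht'⟩
    rwa [h1, Subgroup.mem_bot] at this
  -- `T` has at least three elements
  have hcard : 3 ≤ Nat.card T := by
    by_contra hlt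
    push Not at hlt
    refine hT (no_abelian hP hPmin hcen hTP hTn fun x hx y hy => ?_)
    have hc : Nat.card T = 1 ∨ Nat.card T = 2 := by
      have := Nat.card_pos (α := T)
      omega
    rcases hc with hc | hc
    · have h1 := (Nat.card_eq_one_iff_unique.1 hc).1
      have : (⟨x, hx⟩ : T) = ⟨y, hy⟩ := Subsingleton.elim _ _
      have : x = y := congrArg Subtype.val this
      rw [this]
    · have : Fact (Nat.Prime 2) := ⟨Nat.prime_two⟩
      have := isCyclic_of_prime_card hc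
      have h1 : (⟨x, hx⟩ : T) * ⟨y, hy⟩ = ⟨y, hy⟩ * ⟨x, hx⟩ :=
        IsMulCommutative.is_comm.comm _ _
      exact congrArg Subtype.val h1
  -- counting
  set q : Q → ℝ := fun z => p (s⁻¹ * z) with hq
  have hq0 : ∀ z, 0 ≤ q z := fun z => hp0 _
  have hqsum : ∑ z, q z = 1 := by
    rw [← hsum]
    exact Equiv.sum_comp (Equiv.mulLeft s⁻¹) p
  have hqT : ∀ t ∈ T, ∀ z, q (t * z) = q z := by
    intro t ht z
    have h1 : s⁻¹ * t * s ∈ K := by
      have h2 := hmem t (hTP ht)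
      have e : s⁻¹ * t * s = t * (t⁻¹ * (s⁻¹ * t * s)) := by group
      rw [e]
      exact mul_mem (hTK ht) h2
    rw [hq]
    simp only
    rw [← pK _ h1 (s⁻¹ * z)]
    congr 1; group
  set C : Finset Q := univ.filter (fun a => a ∈ Subgroup.centralizer (T : Set Q)) with hCdef
  have hCm : ∀ a ∈ C, a ∈ Subgroup.centralizer (T : Set Q) := fun a ha =>
    (Finset.mem_filter.1 ha).2
  have hb1 := card_mul_sum_le hZ hp0 hsum (fun t ht a => pK t (hTK ht) a) C hCm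
  have hb2 := card_mul_sum_le hZ hq0 hqsum hqT C hCm
  have htot : 1 ≤ ∑ a ∈ C, p a + ∑ z ∈ C, q z := by
    have h1 : ∑ a ∈ C, p a = ∑ a, ∑ z, if a ∈ C then E a z else 0 := by
      rw [← Finset.sum_filter_add_sum_filter_not univ (fun a => a ∈ C)]
      have hz : ∑ a ∈ univ.filter (fun a => a ∉ C), ∑ z, (if a ∈ C then E a z else 0) = 0 :=
        Finset.sum_eq_zero fun a ha => Finset.sum_eq_zero fun z _ => by
          rw [if_neg (Finset.mem_filter.1 ha).2]
      rw [hz, add_zero]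
      have hf : univ.filter (fun a => a ∈ C) = C := by ext a; simp
      rw [hf]
      refine Finset.sum_congr rfl fun a ha => ?_
      rw [← hp1]
      exact Finset.sum_congr rfl fun z _ => by rw [if_pos ha]
    have h2 : ∑ z ∈ C, q z = ∑ a, ∑ z, if z ∈ C then E a z else 0 := by
      rw [Finset.sum_comm, ← Finset.sum_filter_add_sum_filter_not univ (fun z => z ∈ C)]
      have hz : ∑ z ∈ univ.filter (fun z => z ∉ C), ∑ a, (if z ∈ C then E a z else 0) = 0 :=
        Finset.sum_eq_zero fun z hz => Finset.sum_eq_zero fun a _ => by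
          rw [if_neg (Finset.mem_filter.1 hz).2]
      rw [hz, add_zero]
      have hf : univ.filter (fun a => a ∈ C) = C := by ext a; simp
      rw [hf]
      refine Finset.sum_congr rfl fun z hz => ?_
      rw [hq]
      simp only
      rw [← hp2]
      exact Finset.sum_congr rfl fun a _ => by rw [if_pos hz]
    have h3 : (1 : ℝ) = ∑ a, ∑ z, E a z := by
      rw [← hsum]
      exact Finset.sum_congr rfl fun a _ => (hp1 a).symm
    rw [h1, h2, h3, ← Finset.sum_add_distrib]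
    refine Finset.sum_le_sum fun a _ => ?_
    rw [← Finset.sum_add_distrib]
    refine Finset.sum_le_sum fun z _ => ?_
    by_cases h0 : E a z = 0
    · rw [h0]; simp
    · have hor : a ∈ Subgroup.centralizer (T : Set Q) ∨ z ∈ Subgroup.centralizer (T : Set Q) := by
        refine centralises hP hPmin hcen hTP hT hTn hTmin fun t ht => ?_
        have h4 := hC a z h0
        have h5 := hC (t * a * t⁻¹) z (by rw [kinv' t (hTK ht)]; exact h0)
        exact (h5.symm).mul_right h4.symm.inv_right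
      rcases hor with h | h
      · rw [if_pos (by rw [hCdef]; simpa using h)]
        by_cases hz : z ∈ C
        · rw [if_pos hz]; linarith [hE a z]
        · rw [if_neg hz, add_zero]
      · have hz : z ∈ C := by rw [hCdef]; simpa using h
        rw [if_pos hz]
        by_cases ha : a ∈ C
        · rw [if_pos ha]; linarith [hE a z]
        · rw [if_neg ha, zero_add]
  have hc3 : (3 : ℝ) ≤ (Nat.card T : ℝ) := by exact_mod_cast hcard
  have hs1' : 0 ≤ ∑ a ∈ C, p a := Finset.sum_nonneg fun a _ => hp0 a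
  have hs2' : 0 ≤ ∑ a ∈ C, q a := Finset.sum_nonneg fun a _ => hq0 a
  nlinarith [mul_le_mul_of_nonneg_right hc3 hs1', mul_le_mul_of_nonneg_right hc3 hs2']

end Vale.Agent.P011.H861.Pair
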