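import Mathlib.GroupTheory.Subgroup.Centralizer
import Mathlib.GroupTheory.Commutator.Basic
import Mathlib.Order.Minimal
import Mathlib.Tactic

/-!
Finite groups with a minimal normal subgroup `P` whose centralizer is trivial: the minimal
`P`-invariant subgroups of `P`.
-/

namespace Vale.Agent.P011.H861.Pair

variable {Q : Type*} [Group Q]

/-- The subgroup `X` is normalised by `P`. -/
def Pn (P X : Subgroup Q) : Prop := ∀ g ∈ P, ∀ x ∈ X, g * x * g⁻¹ ∈ X

theorem Pn.inf {P X Y : Subgroup Q} (hX : Pn P X) (hY : Pn P Y) : Pn P (X ⊓ Y) :=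
  fun g hg x hx => ⟨hX g hg x hx.1, hY g hg x hx.2⟩

theorem Pn.closure {P : Subgroup Q} {s : Set Q}
    (h : ∀ g ∈ P, ∀ x ∈ s, g * x * g⁻¹ ∈ Subgroup.closure s) : Pn P (Subgroup.closure s) := by
  intro g hg x hx
  induction hx using Subgroup.closure_induction with
  | mem x hx => exact h g hg x hx
  | one => simp
  | mul x y _ _ h1 h2 =>
    have : g * (x * y) * g⁻¹ = (g * x * g⁻¹) * (g * y * g⁻¹) := by group
    rw [this]
    exact mul_mem h1 h2
  | inv x _ h1 =>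
    have : g * x⁻¹ * g⁻¹ = (g * x * g⁻¹)⁻¹ := by group
    rw [this]
    exact inv_mem h1

/-- `Z(K)` is normalised by `P` if `K` is. -/
theorem Pn.center {P K : Subgroup Q} (hK : Pn P K) :
    Pn P (K ⊓ Subgroup.centralizer (K : Set Q)) := by
  refine hK.inf ?_
  intro g hg x hx
  rw [Subgroup.mem_centralizer_iff] at hx ⊢
  intro h hh
  have h1 : g⁻¹ * h * g ∈ K := by
    have := hK g⁻¹ (inv_mem hg) h hh
    simpa using this
  have h2 := hx _ h1
  calc h * (g * x * g⁻¹) = g * ((g⁻¹ * h * g) * x) * g⁻¹ := by group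
    _ = g * (x * (g⁻¹ * h * g)) * g⁻¹ := by rw [h2]
    _ = _ := by group

section min

variable [Finite Q]

/-- Minimal nontrivial `P`-invariant subgroups exist. -/
theorem exists_min {P K : Subgroup Q} (hK : Pn P K) (hne : K ≠ ⊥) :
    ∃ T : Subgroup Q, T ≤ K ∧ T ≠ ⊥ ∧ Pn P T ∧
      ∀ X : Subgroup Q, X ≤ T → Pn P X → X = ⊥ ∨ X = T := by
  have hfin : {T : Subgroup Q | T ≤ K ∧ T ≠ ⊥ ∧ Pn P T}.Finite := Set.toFinite _
  obtain ⟨T, hT⟩ := hfin.exists_minimal ⟨K, le_rfl, hne, hK⟩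
  refine ⟨T, hT.prop.1, hT.prop.2.1, hT.prop.2.2, fun X hX hXn => ?_⟩
  by_cases h : X = ⊥
  · exact Or.inl h
  · exact Or.inr (le_antisymm hX (hT.le_of_le ⟨hX.trans hT.prop.1, h, hXn⟩ hX))

/-- Two conjugates of a minimal `P`-invariant subgroup are equal or commute. -/
theorem dich {P T : Subgroup Q} (hP : P.Normal) (hTP : T ≤ P) (hTn : Pn P T)
    (hmin : ∀ X : Subgroup Q, X ≤ T → Pn P X → X = ⊥ ∨ X = T) (q : Q) :
    (∀ t ∈ T, q * t * q⁻¹ ∈ T) ∨ ∀ t ∈ T, ∀ u ∈ T, Commute t (q * u * q⁻¹) := by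
  obtain ⟨Y, hY⟩ : ∃ Y : Subgroup Q, ∀ x, x ∈ Y ↔ x ∈ T ∧ q⁻¹ * x * q ∈ T :=
    ⟨T ⊓ T.comap (MulAut.conj q⁻¹).toMonoidHom, fun x => by simp [Subgroup.mem_inf]⟩
  have hYT : Y ≤ T := fun x hx => ((hY x).1 hx).1
  have hYn : Pn P Y := by
    intro g hg x hx
    rw [hY] at hx ⊢
    refine ⟨hTn g hg x hx.1, ?_⟩
    have h1 := hP.conj_mem g hg q⁻¹
    have h2 := hTn _ h1 _ hx.2
    have : q⁻¹ * (g * x * g⁻¹) * q =
        q⁻¹ * g * q⁻¹⁻¹ * (q⁻¹ * x * q) * (q⁻¹ * g * q⁻¹⁻¹)⁻¹ := by group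
    rw [this]
    exact h2
  rcases hmin Y hYT hYn with h | h
  · right
    intro t ht u hu
    have htP := hTP ht
    have hquP : q * u * q⁻¹ ∈ P := hP.conj_mem u (hTP hu) q
    have hx : t * (q * u * q⁻¹) * t⁻¹ * (q * u * q⁻¹)⁻¹ ∈ Y := by
      rw [hY]
      constructor
      · have h1 := hTn _ hquP _ (inv_mem ht)
        have : t * (q * u * q⁻¹) * t⁻¹ * (q * u * q⁻¹)⁻¹ =
            t * (q * u * q⁻¹ * t⁻¹ * (q * u * q⁻¹)⁻¹) := by group
        rw [this]
        exact mul_mem ht h1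
      · have h0 : q⁻¹ * t * q⁻¹⁻¹ ∈ P := hP.conj_mem t htP q⁻¹
        have h1 := hTn _ h0 _ hu
        have : q⁻¹ * (t * (q * u * q⁻¹) * t⁻¹ * (q * u * q⁻¹)⁻¹) * q =
            (q⁻¹ * t * q⁻¹⁻¹ * u * (q⁻¹ * t * q⁻¹⁻¹)⁻¹) * u⁻¹ := by group
        rw [this]
        exact mul_mem h1 (inv_mem hu)
    rw [h, Subgroup.mem_bot] at hx
    have : t * (q * u * q⁻¹) = (q * u * q⁻¹) * t := by
      have h3 : t * (q * u * q⁻¹) * t⁻¹ = q * u * q⁻¹ := by
        rwa [mul_inv_eq_one] at hx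
      rwa [mul_inv_eq_iff_eq_mul] at h3
    exact this
  · left
    have hsub : ∀ t ∈ T, q⁻¹ * t * q ∈ T := fun t ht => ((hY t).1 (h ▸ ht)).2
    have hinj : Function.Injective (fun t : T => (⟨q⁻¹ * t * q, hsub t t.2⟩ : T)) := by
      intro a b hab
      have h1 : q⁻¹ * (a : Q) * q = q⁻¹ * (b : Q) * q := congrArg Subtype.val hab
      exact Subtype.ext (by simpa using h1)
    intro t ht
    obtain ⟨u, hu⟩ := (Finite.injective_iff_surjective.1 hinj) ⟨t, ht⟩
    have h1 : q⁻¹ * (u : Q) * q = t := congrArg Subtype.val hu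
    have : q * t * q⁻¹ = u := by rw [← h1]; group
    rw [this]
    exact u.2

variable {P : Subgroup Q}

omit [Finite Q] in
/-- `P` is generated by the conjugates of any nontrivial subgroup of `P`. -/
theorem normalClosure_eq (hP : P.Normal)
    (hPmin : ∀ X : Subgroup Q, X.Normal → X ≤ P → X = ⊥ ∨ X = P) {T : Subgroup Q}
    (hTP : T ≤ P) (hT : T ≠ ⊥) : Subgroup.normalClosure (T : Set Q) = P := by
  rcases hPmin _ Subgroup.normalClosure_normal (Subgroup.normalClosure_le_normal hTP) with h | h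
  · exact absurd (le_bot_iff.1 (h ▸ Subgroup.subset_normalClosure)) hT
  · exact h

/-- `P` has no nontrivial abelian `P`-invariant subgroup. -/
theorem no_abelian (hP : P.Normal)
    (hPmin : ∀ X : Subgroup Q, X.Normal → X ≤ P → X = ⊥ ∨ X = P)
    (hcen : Subgroup.centralizer (P : Set Q) = ⊥) {X : Subgroup Q} (hXP : X ≤ P)
    (hXn : Pn P X) (hab : ∀ x ∈ X, ∀ y ∈ X, Commute x y) : X = ⊥ := by
  by_contra hne
  obtain ⟨T, hTX, hT, hTn, hTmin⟩ := exists_min hXn hne
  have hTP : T ≤ P := hTX.trans hXP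
  have hcl := normalClosure_eq hP hPmin hTP hT
  refine hT (le_bot_iff.1 (hcen ▸ fun t ht => ?_))
  rw [Subgroup.mem_centralizer_iff]
  have key : P ≤ Subgroup.centralizer {t} := by
    rw [← hcl, Subgroup.normalClosure, Subgroup.closure_le]
    intro x hx
    rw [Group.mem_conjugatesOfSet_iff] at hx
    obtain ⟨u, hu, hux⟩ := hx
    rw [isConj_iff] at hux
    obtain ⟨q, rfl⟩ := hux
    rw [SetLike.mem_coe, Subgroup.mem_centralizer_singleton_iff]
    rcases dich hP hTP hTn hTmin q with h | h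
    · exact (hab _ (hTX (h u hu)) _ (hTX ht))
    · exact (h t ht u hu).symm
  intro h hh
  have := key hh
  rw [Subgroup.mem_centralizer_singleton_iff] at this
  exact this

/-- A subgroup of `T` which is normalised by `T` is `P`-invariant, hence trivial. -/
theorem eq_of_invariant (hP : P.Normal)
    (hPmin : ∀ X : Subgroup Q, X.Normal → X ≤ P → X = ⊥ ∨ X = P) {T : Subgroup Q}
    (hTP : T ≤ P) (hT : T ≠ ⊥) (hTn : Pn P T)
    (hTmin : ∀ X : Subgroup Q, X ≤ T → Pn P X → X = ⊥ ∨ X = T)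
    {W : Subgroup Q} (hWT : W ≤ T) (hW : Pn T W) : W = ⊥ ∨ W = T := by
  refine hTmin W hWT ?_
  have hcl := normalClosure_eq hP hPmin hTP hT
  intro g hg
  rw [← hcl, Subgroup.normalClosure] at hg
  induction hg using Subgroup.closure_induction with
  | mem x hx =>
    intro y hy
    rw [Group.mem_conjugatesOfSet_iff] at hx
    obtain ⟨u, hu, hux⟩ := hx
    rw [isConj_iff] at hux
    obtain ⟨q, rfl⟩ := hux
    rcases dich hP hTP hTn hTmin q with h | h
    · exact hW _ (h u hu) y hy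
    · have h1 : Commute y (q * u * q⁻¹) := h y (hWT hy) u hu
      have : q * u * q⁻¹ * y * (q * u * q⁻¹)⁻¹ = y := by
        rw [← h1.eq]; group
      rw [this]
      exact hy
  | one => intro y hy; simpa using hy
  | mul a b _ _ h1 h2 =>
    intro y hy
    have : a * b * y * (a * b)⁻¹ = a * (b * y * b⁻¹) * a⁻¹ := by group
    rw [this]
    exact h1 _ (h2 _ hy)
  | inv a _ h1 =>
    intro y hy
    have hinj : Function.Injective (fun t : W => (⟨a * t * a⁻¹, h1 t t.2⟩ : W)) := by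
      intro b c hbc
      have h3 : a * (b : Q) * a⁻¹ = a * (c : Q) * a⁻¹ := congrArg Subtype.val hbc
      exact Subtype.ext (by simpa using h3)
    obtain ⟨u, hu⟩ := (Finite.injective_iff_surjective.1 hinj) ⟨y, hy⟩
    have h3 : a * (u : Q) * a⁻¹ = y := congrArg Subtype.val hu
    have : a⁻¹ * y * a⁻¹⁻¹ = u := by rw [← h3]; group
    rw [this]
    exact u.2

/-- `T` is generated by its commutators. -/
theorem closure_comm_eq (hP : P.Normal)
    (hPmin : ∀ X : Subgroup Q, X.Normal → X ≤ P → X = ⊥ ∨ X = P)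
    (hcen : Subgroup.centralizer (P : Set Q) = ⊥) {T : Subgroup Q}
    (hTP : T ≤ P) (hT : T ≠ ⊥) (hTn : Pn P T)
    (hTmin : ∀ X : Subgroup Q, X ≤ T → Pn P X → X = ⊥ ∨ X = T) :
    Subgroup.closure {x : Q | ∃ t ∈ T, ∃ u ∈ T, x = t * u * t⁻¹ * u⁻¹} = T := by
  have hle : Subgroup.closure {x : Q | ∃ t ∈ T, ∃ u ∈ T, x = t * u * t⁻¹ * u⁻¹} ≤ T := by
    rw [Subgroup.closure_le]
    rintro x ⟨t, ht, u, hu, rfl⟩
    exact mul_mem (mul_mem (mul_mem ht hu) (inv_mem ht)) (inv_mem hu)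
  have hn : Pn P (Subgroup.closure {x : Q | ∃ t ∈ T, ∃ u ∈ T, x = t * u * t⁻¹ * u⁻¹}) := by
    refine Pn.closure ?_
    rintro g hg x ⟨t, ht, u, hu, rfl⟩
    refine Subgroup.subset_closure ⟨_, hTn g hg t ht, _, hTn g hg u hu, ?_⟩
    group
  rcases hTmin _ hle hn with h | h
  · exfalso
    refine hT (no_abelian hP hPmin hcen hTP hTn fun x hx y hy => ?_)
    have h1 : x * y * x⁻¹ * y⁻¹ ∈
        Subgroup.closure {x : Q | ∃ t ∈ T, ∃ u ∈ T, x = t * u * t⁻¹ * u⁻¹} :=
      Subgroup.subset_closure ⟨x, hx, y, hy, rfl⟩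
    rw [h, Subgroup.mem_bot, mul_inv_eq_one, mul_inv_eq_iff_eq_mul] at h1
    exact h1
  · exact h

/-- If `z` commutes with all `t a t⁻¹ a⁻¹`, `t ∈ T`, then `a` or `z` centralises `T`. -/
theorem centralises (hP : P.Normal)
    (hPmin : ∀ X : Subgroup Q, X.Normal → X ≤ P → X = ⊥ ∨ X = P)
    (hcen : Subgroup.centralizer (P : Set Q) = ⊥) {T : Subgroup Q}
    (hTP : T ≤ P) (hT : T ≠ ⊥) (hTn : Pn P T)
    (hTmin : ∀ X : Subgroup Q, X ≤ T → Pn P X → X = ⊥ ∨ X = T) {a z : Q}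
    (haz : ∀ t ∈ T, Commute z (t * a * t⁻¹ * a⁻¹)) :
    a ∈ Subgroup.centralizer (T : Set Q) ∨ z ∈ Subgroup.centralizer (T : Set Q) := by
  rcases dich hP hTP hTn hTmin a with h | h
  · -- `a` normalises `T`
    have hle : Subgroup.closure {x : Q | ∃ t ∈ T, x = t * a * t⁻¹ * a⁻¹} ≤ T := by
      rw [Subgroup.closure_le]
      rintro x ⟨t, ht, rfl⟩
      have : t * a * t⁻¹ * a⁻¹ = t * (a * t⁻¹ * a⁻¹) := by group
      rw [this]
      exact mul_mem ht (h _ (inv_mem ht))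
    have hn : Pn T (Subgroup.closure {x : Q | ∃ t ∈ T, x = t * a * t⁻¹ * a⁻¹}) := by
      refine Pn.closure ?_
      rintro g hg x ⟨t, ht, rfl⟩
      have : g * (t * a * t⁻¹ * a⁻¹) * g⁻¹ =
          ((g * t) * a * (g * t)⁻¹ * a⁻¹) * (g * a * g⁻¹ * a⁻¹)⁻¹ := by group
      rw [this]
      exact mul_mem (Subgroup.subset_closure ⟨_, mul_mem hg ht, rfl⟩)
        (inv_mem (Subgroup.subset_closure ⟨_, hg, rfl⟩))
    rcases eq_of_invariant hP hPmin hTP hT hTn hTmin hle hn with h1 | h1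
    · left
      rw [Subgroup.mem_centralizer_iff]
      intro t ht
      have h2 : t * a * t⁻¹ * a⁻¹ ∈
          Subgroup.closure {x : Q | ∃ t ∈ T, x = t * a * t⁻¹ * a⁻¹} :=
        Subgroup.subset_closure ⟨t, ht, rfl⟩
      rw [h1, Subgroup.mem_bot, mul_inv_eq_one, mul_inv_eq_iff_eq_mul] at h2
      exact h2
    · right
      have h2 : T ≤ Subgroup.centralizer {z} := by
        rw [← h1, Subgroup.closure_le]
        rintro x ⟨t, ht, rfl⟩
        rw [SetLike.mem_coe, Subgroup.mem_centralizer_singleton_iff]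
        exact (haz t ht).symm
      rw [Subgroup.mem_centralizer_iff]
      intro t ht
      have := h2 ht
      rw [Subgroup.mem_centralizer_singleton_iff] at this
      exact this
  · -- `T` and `a T a⁻¹` commute
    right
    have hz : T ≤ (Subgroup.centralizer {z}).comap (MulAut.conj a).toMonoidHom := by
      have hcl := closure_comm_eq hP hPmin hcen hTP hT hTn hTmin
      rw [← hcl, Subgroup.closure_le]
      rintro x ⟨t, ht, u, hu, rfl⟩
      rw [SetLike.mem_coe, Subgroup.mem_comap, Subgroup.mem_centralizer_singleton_iff]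
      have h1 := haz t ht
      have h2 := haz u hu
      have h3 := haz (t * u) (mul_mem ht hu)
      have h4 : Commute u (a * t⁻¹ * a⁻¹) := h u hu _ (inv_mem ht)
      have e : (MulAut.conj a).toMonoidHom (t * u * t⁻¹ * u⁻¹) =
          ((t * u) * a * (t * u)⁻¹ * a⁻¹)⁻¹ * ((t * a * t⁻¹ * a⁻¹) * (u * a * u⁻¹ * a⁻¹)) := by
        have e1 : (t * a * t⁻¹ * a⁻¹) * (u * a * u⁻¹ * a⁻¹) =
            t * ((a * t⁻¹ * a⁻¹) * u) * (a * u⁻¹ * a⁻¹) := by group
        rw [e1, ← h4.eq]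
        simp only [MulEquiv.coe_toMonoidHom, MulAut.conj_apply]
        group
      have h5 : Commute z ((MulAut.conj a).toMonoidHom (t * u * t⁻¹ * u⁻¹)) := by
        rw [e]
        exact h3.inv_right.mul_right (h1.mul_right h2)
      exact h5.symm
    rw [Subgroup.mem_centralizer_iff]
    intro t ht
    have h1 := haz t ht
    have h2 := hz (inv_mem ht)
    rw [Subgroup.mem_comap, Subgroup.mem_centralizer_singleton_iff] at h2
    have h3 : Commute z (a * t⁻¹ * a⁻¹) := Eq.symm h2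
    have e : t = (t * a * t⁻¹ * a⁻¹) * (a * t⁻¹ * a⁻¹)⁻¹ := by group
    have h4 : Commute z t := by
      rw [e]
      exact h1.mul_right h3.inv_right
    exact h4.eq.symm

end min

end Vale.Agent.P011.H861.Pair
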