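import Vale.Agent.P011.H861.PairFin
import Vale.Agent.P011.H73.LineAbs

/-!
The finite group lemma (P2) for `H73.Gns.PairLaw`: the labels `r`, `s` are trivial together.
-/

namespace Vale.Agent.P011.H861.Pair

open Finset Vale.Agent.P011.H73.Gns

variable {Q : Type*} [Group Q] [Fintype Q] {P : Subgroup Q}

/-- The case `r = 1`. -/
theorem eq_one_of_pairLaw (hP : P.Normal)
    (hPmin : ∀ X : Subgroup Q, X.Normal → X ≤ P → X = ⊥ ∨ X = P)
    (hcen : Subgroup.centralizer (P : Set Q) = ⊥) {s : Q} {D : Q → Q → ℝ}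
    (h : PairLaw P 1 s D) : s = 1 := by
  refine eq_one_aux hP hPmin hcen (s := s) (E := fun a z => D a (s⁻¹ * z))
    (p := fun a => ∑ a', D a a') (fun a z => h.nonneg a _) (fun a => ?_) (fun z => ?_) h.sum_eq
    (fun g hg a z => ?_) (fun g hg a z => ?_) (fun a z hne => ?_)
  · exact Equiv.sum_comp (Equiv.mulLeft s⁻¹) (D a)
  · exact (h.marg (s⁻¹ * z)).symm
  · have := h.inv1 g hg a (s⁻¹ * z)
    have e : s⁻¹ * (g * z * g⁻¹) = s⁻¹ * g * s * (s⁻¹ * z) * g⁻¹ := by group
    simp only [e]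
    simpa using this
  · have := h.inv2 g hg a (s⁻¹ * z)
    have e : s⁻¹ * (s * g * s⁻¹ * z * (s⁻¹ * g⁻¹ * s)) = g * (s⁻¹ * z) * s⁻¹ * g⁻¹ * s := by group
    simp only [e]
    simpa using this
  · have := h.comm a (s⁻¹ * z) hne
    simpa using this

/-- The two labels may be exchanged. -/
theorem PairLaw_swap {r s : Q} {D : Q → Q → ℝ} (h : PairLaw P r s D) :
    PairLaw P s r (fun a a' => D a' a) where
  nonneg a a' := h.nonneg a' a
  sum_eq := by rw [Finset.sum_comm]; exact h.sum_eq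
  marg a := (h.marg a).symm
  inv1 g hg a a' := h.inv1 g hg a' a
  inv2 g hg a a' := h.inv2 g hg a' a
  comm a a' hne := (h.comm a' a hne).symm

/-- **P2.**  `P` minimal normal with trivial centralizer: the labels are trivial together. -/
theorem pairLaw_iff (hP : P.Normal)
    (hPmin : ∀ X : Subgroup Q, X.Normal → X ≤ P → X = ⊥ ∨ X = P)
    (hcen : Subgroup.centralizer (P : Set Q) = ⊥) (r s : Q) (D : Q → Q → ℝ)
    (h : PairLaw P r s D) : r = 1 ↔ s = 1 :=
  ⟨fun hr => eq_one_of_pairLaw hP hPmin hcen (D := D) (hr ▸ h),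
    fun hs => eq_one_of_pairLaw hP hPmin hcen (D := fun a a' => D a' a) (hs ▸ PairLaw_swap h)⟩

end Vale.Agent.P011.H861.Pair
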